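import Crest.Agent.X262.Conc69.Prd
import Crest.Agent.X262.Gwb59.Ax

/-!
# Row 262, CONC (helper69), part 3: from fields to classes

* `conc_core` : the class-level concavity statement from `Conc78.ConcF`.
-/

set_option autoImplicit false
set_option linter.unusedSectionVars false

noncomputable section

namespace Crest.Agent.X262.Conc69

open Crest.Agent.X277 Crest.Agent.X277.BD
open Crest.Agent.X262.Coh Crest.Agent.X262.Gwb Crest.Agent.X262.Vb Crest.Agent.X262.Syz
  Crest.Agent.X262.Qn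
open Crest.Agent.X262.End66 (sum Loc loc_of_mem)
open Crest.Agent.X262.Conc78 (Cn Cd ConcF)

variable {C : Coh.Th} {B' : Hb.Th}

theorem conc_core (V : Vir C B') (hF : ConcF) {Y S B : SV} (i : Hom (Y.prod S) B) (m : Emb B)
    (n : Emb Y) (e : Option (Option n.J) ≃ m.J) (jU : n.J)
    (rsS : ∃ p : Tup (Y.prod S).F, p.Reg _ ∧ Rs i (m.T (e (some none))) p ∧ Rs (snd Y S) (ownT S) p)
    (rsY : ∀ k, ∃ p : Tup (Y.prod S).F, p.Reg _ ∧ Rs i (m.T (e (some (some k)))) p ∧
      Rs (fst Y S) (n.T k) p)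
    (f : Option ((m.T (e (some (some jU)))).io × (m.T (e (some none))).io) ≃ (m.T (e none)).io)
    (cv : ∀ a b, (m.T (e none)).y (f (some (a, b))) =
      (m.T (e (some (some jU)))).y a * (m.T (e (some none))).y b)
    (dv : IsDv i ((m.T (e none)).bd - ((m.T (e (some (some jU)))).bd + (m.T (e (some none))).bd)))
    (hdim : (Y.prod S).dim + 1 = B.dim) (hS : IsProj S) (d : m.J →₀ ℕ) (d' : n.J →₀ ℕ)
    (d1 : d (e none) = 0) (d2 : d (e (some none)) = 0) (d3 : ∀ k, d (e (some (some k))) = d' k)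
    (d4 : d' jU ≠ 0) (x : C.H B × C.H Y × C.H Y) (l : Multiset (C.H B × C.H Y × C.H Y))
    (hz : ∀ z ∈ x ::ₘ l, C.pb i z.1 =
      C.pb (fst Y S) z.2.1 + C.pb (snd Y S) (C.hc S) * C.pb (fst Y S) z.2.2)
    (hN : S.P.N = d' jU + Multiset.card l) : ∃ c : ℂ, c ≠ 0 ∧
      C.itg B (x.1 * V.gw.op m d (l.map fun z => z.1)) =
        c * C.itg Y (x.2.2 * V.gw.op n d' (l.map fun z => z.2.2)) := by
  rcases lt_or_ge (Multiset.card l) 2 with hl | hl
  · refine ⟨1, one_ne_zero, ?_⟩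
    rw [V.low m d _ (by simpa using hl), V.low n d' _ (by simpa using hl)]
    simp
  obtain ⟨y', h⟩ := exists_rst i m.toPre
  obtain ⟨Dn⟩ := exists_rsD (μ := fst Y S) (n := n.toPre) (m := rp dv.emb h)
    (g := fun k => e (some (some k))) fun k => (rsY k).elim fun _ hp =>
      rs_of_rs hp.2.1 (rs_rst h _) hp.1.1 hp.2.2
  have hs : Rs (snd Y S) (ownT S) ((rp dv.emb h).T (e (some none))) := rsS.elim fun _ hp =>
    rs_of_rs hp.2.1 (rs_rst h _) hp.1.1 hp.2.2
  let r : Cd n.toPre.io m.toPre.io := ⟨e, Dn.e, jU, f⟩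
  have s1 : Sat (sum m.tgt r.cn.xT) y' := sat_end h r.cn cv dv
  have s2 : Sat (sum (r.tgt n.tgt) r.cn.xT) y' := sat_cd hS r h.1 (rst_rsD Dn) hs fun p =>
    (pv_xi r.cn y' p).symm.trans (s1.on (.inr p))
  have hu : ∀ b, Loc m.tgt (r.cn.uT.F b) := fun b =>
    loc_of_mem ((cut_pre m.toPre).mem (r.cn.uT.hom b) (by
      change pv _ (r.cn.xi b.1 * r.cn.tp b.2 - r.cn.xi b.2 * r.cn.tp b.1) = 0
      have h1 : ∀ p, pv (py m.toPre) (r.cn.xi p) = pv (py m.toPre) (r.cn.tp p) := fun p =>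
        (pv_xi _ _ p).trans ((cv p.1 p.2).trans (pv_tp r.cn (py m.toPre) p).symm)
      rw [pv, map_sub, map_mul, map_mul, sub_eq_zero]
      exact (congrArg₂ (· * ·) (h1 _) (h1 _).symm).trans (mul_comm _ _)))
  have hnv : r.cn.Nv m.tgt := nv_of r.cn hu fun E _ _ y hy hO => by
    have h1 := finrank_Nm_pre m.toPre hy (Pre.on_iff.1 fun a => hO (.inl a))
    have h2 : _ = (rp dv.emb h).cod := s1.finrank_Nm h.1 (gen_py (rp dv.emb h))
      (smCh_py (rp dv.emb h)) hy hO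
    have h3 := dim_add_cod m.toPre
    have h4 : _ = adim m.toPre.io := dim_add_cod (rp dv.emb h)
    omega
  have hd : (d : m.J → ℕ) = r.up d' := funext fun j => by
    obtain ⟨_ | _ | k, rfl⟩ := e.surjective j
    exacts [d1.trans (r.up_C _).symm, d2.trans (r.up_S _).symm, (d3 k).trans (r.up_k _ k).symm]
  obtain ⟨M, _, _, a, ha, hM⟩ := Ev.exists_idx (x ::ₘ l)
  obtain ⟨k, hk, key⟩ := hF B' V.hB r m.tgt _ n.tgt _ d' d4 (V.good m _) (V.good n _) hu
    (s1.same s2) hnv (fun q => (V.I.e m.toPre).fam (a q).1)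
    (fun q => (V.I.e n.toPre).fam (a q).2.1) (fun q => (V.I.e n.toPre).fam (a q).2.2)
    (fun _ => V.hI.cls _ _) (fun _ => V.hI.cls _ _) (fun _ => V.hI.cls _ _)
    (fun q E _ _ _ y hy hO => by
      have h1 : (rp dv.emb h).On y := (s1.on_iff hy).1 hO
      have h2 := V.hI.rs (rpD dv.emb h) E y hy h1 (a q).1
      have h3 : V.I.ev (rp dv.emb h) E y (C.pb (snd Y S) (C.hc S)) = hc B' r.cn.jS E y :=
        (congrArg _ (End36.rs_pb_c1 V.man hs (h.1 _) (End36.reg_own S))).trans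
          (V.hI.hc (rp dv.emb h) (e (some none)) E y hy h1)
      rw [hz _ (ha ▸ Multiset.mem_map_of_mem a (Finset.mem_univ_val q)), map_add, map_mul,
        V.hI.rs Dn E y hy h1, V.hI.rs Dn E y hy h1, h3] at h2
      exact h2.symm)
    (by
      obtain ⟨e', -⟩ := hs
      rw [hM, Multiset.card_cons, ← add_assoc, ← hN]
      exact (Fintype.card_congr e').symm.trans (Fintype.card_fin _))
  refine ⟨k, hk, ?_⟩
  rw [V.itg_op m d (by simpa using hl), V.itg_op n d' (by simpa using hl),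
    ← Multiset.map_cons (fun z : C.H B × C.H Y × C.H Y => z.1),
    ← Multiset.map_cons (fun z : C.H B × C.H Y × C.H Y => z.2.2), ← ha, Multiset.map_map,
    Multiset.map_map, Ev.gw_eq (V.a0 m d), Ev.gw_eq (V.a0 n d'), hd]
  exact key

end Crest.Agent.X262.Conc69
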