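import Crest.Agent.X262.Syz.Fin
import Crest.Agent.X262.Conc78.Defs
import Crest.Agent.X262.End66.Loc
import Crest.Agent.X262.End36.Emb

/-!
# Row 262, CONC (helper69), part 1: the equations of the concave end

* `nv_of` : the normal vector from a jump of the rank;
* `exists_rst`, `rp`, `rpD`, `rs_of_rs` : the restriction of an embedding, same index sets;
* `sat_end` : the coordinates `ξ_p` cut out the end.
-/

set_option autoImplicit false
set_option linter.unusedSectionVars false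

noncomputable section

namespace Crest.Agent.X262.Conc69

open Crest.Agent.X277 Crest.Agent.X277.Lef Crest.Agent.X277.AN.G1 Crest.Agent.X277.BD
  Crest.Agent.X277.BD.Br
open Crest.Agent.X262.Coh Crest.Agent.X262.Gwb Crest.Agent.X262.Vb Crest.Agent.X262.Syz
open Crest.Agent.X262.End66 (sum Loc Same dp jac_eq dp_mul pv_mul)
open Crest.Agent.X262.Conc78 (Cn Cd vr)

section Fld

variable {J : Type} [Fintype J] [DecidableEq J] {io : J → Type} [∀ j, Fintype (io j)]
  [∀ j, DecidableEq (io j)] {A : Type} [Fintype A] {E : Type} [Field E] [Algebra ℂ E]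

theorem dp_X (y : Pnt io E) (w : Vr io → E) (v : Vr io) : dp y w (MvPolynomial.X v) = w v := by
  rw [dp, Finset.sum_eq_single v] <;> simp +contextual [pv, eq_comm]

theorem dp_sub (y : Pnt io E) (w : Vr io → E) (p q : MvPolynomial (Vr io) ℂ) :
    dp y w (p - q) = dp y w p - dp y w q := by
  simp only [dp, pv, map_sub, sub_mul, Finset.sum_sub_distrib]

theorem pv_tp (n : Cn io) (y : Pnt io E) (p : n.KL) :
    pv y (n.tp p) = y n.jU p.1 * y n.jS p.2 := by simp [pv, Cn.tp]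

theorem pv_xi (n : Cn io) (y : Pnt io E) (p : n.KL) :
    pv y (n.xi p) = y n.jC (n.f (some p)) := by simp [pv, Cn.xi]

/-- the normal vector -/
theorem nv_of (n : Cn io) {T : Tgt io A} (hu : ∀ b, Loc T (n.uT.F b))
    (h : ∀ (E : Type) [Field E] [Algebra ℂ E] (y : Pnt io E), NZ y → (sum T n.xT).On y →
      Module.finrank E (T.Nm y) < Module.finrank E ((sum T n.xT).Nm y)) : n.Nv T := by
  intro E _ _ y hy hO
  have hT : T.On y := fun a => hO (.inl a)
  have hx : ∀ p, pv y (n.xi p) = 0 := fun p => hO (.inr p)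
  obtain ⟨w, hw, p₀, h0⟩ : ∃ w, T.jac y w = 0 ∧ ∃ p, w ⟨n.jC, n.f (some p)⟩ ≠ 0 := by
    by_contra hn
    push Not at hn
    have h1 : LinearMap.ker (T.jac y) ≤ LinearMap.ker ((sum T n.xT).jac y) := fun w hw =>
      funext fun a => by
        rw [jac_eq]
        rcases a with a | p
        · exact (jac_eq T y w a).symm.trans (congrFun hw a)
        · exact (dp_X y w _).trans (hn w hw p)
    have h2 := Submodule.finrank_mono h1
    have h3 := LinearMap.finrank_range_add_finrank_ker (T.jac y)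
    have h4 := LinearMap.finrank_range_add_finrank_ker ((sum T n.xT).jac y)
    have h5 := h E y hy hO
    unfold Tgt.Nm at h5
    omega
  have key : ∀ p p', w ⟨n.jC, n.f (some p)⟩ * pv y (n.tp p') =
      w ⟨n.jC, n.f (some p')⟩ * pv y (n.tp p) := fun p p' => by
    have h1 : dp y w (n.xi p * n.tp p' - n.xi p' * n.tp p) = 0 :=
      (hu (p, p')).dp_eq_zero hy hT hw
    rw [dp_sub, dp_mul, dp_mul, hx, hx, Cn.xi, Cn.xi, dp_X, dp_X] at h1
    linear_combination h1
  obtain ⟨a, ha⟩ := hy n.jU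
  obtain ⟨b, hb⟩ := hy n.jS
  have h1 : pv y (n.tp (a, b)) ≠ 0 := by rw [pv_tp]; exact mul_ne_zero ha hb
  have h2 : w ⟨n.jC, n.f (some (a, b))⟩ ≠ 0 := fun h2 =>
    mul_ne_zero h0 h1 (by rw [key, h2, zero_mul])
  refine ⟨(pv y (n.tp (a, b)) / w ⟨n.jC, n.f (some (a, b))⟩) • w, by rw [map_smul, hw, smul_zero],
    fun p => ?_⟩
  rw [Pi.smul_apply, smul_eq_mul, div_mul_eq_mul_div, mul_comm, key, mul_div_cancel_left₀ _ h2]

theorem exists_ch {c : J → Vr io} (hc : ∀ j, (c j).1 = j) :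
    ∃ c' : ∀ j, io j, c = fun j => ⟨j, c' j⟩ := by
  have h : ∀ j, ∃ i : io j, c j = ⟨j, i⟩ := fun j => by
    have h1 := hc j
    generalize c j = v at h1
    obtain ⟨j', i⟩ := v
    subst h1
    exact ⟨i, rfl⟩
  choose c' h using h
  exact ⟨c', funext h⟩

end Fld

variable {X Y Z : SV} {μ : Hom X Y} {m : Pre Y} {y' : Pnt m.io X.F}

theorem exists_rst (μ : Hom X Y) (m : Pre Y) : ∃ y' : Pnt m.io X.F, Rst μ m y' := by
  obtain ⟨x⟩ : Nonempty X.Pt := inferInstance
  choose c hc using exists_gen m (μ.map x)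
  refine ⟨fun j l => μ.p.π (py m j l / py m j (c j)), fun j => ⟨c j, ?_⟩, fun j =>
    ⟨py m j (c j), 1, fun l => μ.mem_O (div_mem_lp (hc j) l), fun l => (one_mul _).symm⟩⟩
  beta_reduce
  rw [div_self (hc j).ne, Plc.π_one]
  exact one_ne_zero

theorem rs_rst (h : Rst μ m y') (j : m.J) : Rs μ (m.T j) ⟨m.io j, y' j⟩ :=
  (h.2 j).elim fun u h => h.elim fun c h => ⟨Equiv.refl _, u, c, h⟩

/-- the restricted embedding -/
def rp (hμ : IsEmb μ) (h : Rst μ m y') : Pre X where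
  J := m.J
  T j := ⟨m.io j, y' j⟩
  reg j := End36.rs_reg (rs_rst h j) (h.1 j) (m.reg j)
  emb := End36.IsE.res hμ m.emb (g := id) (rs_rst h) h.1

/-- the data of the restriction -/
def rpD (hμ : IsEmb μ) (h : Rst μ m y') : RsD μ m (rp hμ h) id where
  e _ := Equiv.refl _
  u k := (h.2 k).choose
  c k := (h.2 k).choose_spec.choose
  mem k := (h.2 k).choose_spec.choose_spec.1
  eq k := (h.2 k).choose_spec.choose_spec.2

/-- two restrictions of a tuple are proportional -/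
theorem rs_of_rs {ν : Hom X Z} {t : Tup Y.F} {t' : Tup Z.F} {q q' : Tup X.F} (h1 : Rs μ t q)
    (h2 : Rs μ t q') (hq : ∃ i, q.y i ≠ 0) (h3 : Rs ν t' q) : Rs ν t' q' := by
  obtain ⟨e₁, u₁, c₁, a₁, b₁⟩ := h1
  obtain ⟨e₂, u₂, c₂, a₂, b₂⟩ := h2
  obtain ⟨e₃, u₃, c₃, a₃, b₃⟩ := h3
  obtain ⟨i, hi⟩ := hq
  obtain ⟨i, rfl⟩ := e₁.surjective i
  have key : ∀ l, q'.y (e₂ l) = q'.y (e₂ i) / q.y (e₁ i) * q.y (e₁ l) := fun l => by
    have h4 : μ.p.π (t.y l / u₂) * μ.p.π (t.y i / u₁) = μ.p.π (t.y i / u₂) * μ.p.π (t.y l / u₁) := by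
      rw [← μ.p.π_mul (a₂ l) (a₁ i), ← μ.p.π_mul (a₂ i) (a₁ l), div_mul_div_comm,
        div_mul_div_comm, mul_comm (t.y l)]
    rw [div_mul_eq_mul_div, eq_div_iff hi, b₁, b₁, b₂, b₂]
    linear_combination c₁ * c₂ * h4
  refine ⟨e₃.trans (e₁.symm.trans e₂), u₃, q'.y (e₂ i) / q.y (e₁ i) * c₃, a₃, fun l => ?_⟩
  rw [Equiv.trans_apply, Equiv.trans_apply, key, Equiv.apply_symm_apply, b₃, mul_assoc]

/-- **the end is cut out by the coordinates `ξ_p`** -/
theorem sat_end (h : Rst μ m y') (n : Cn m.io)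
    (cv : ∀ a b, (m.T n.jC).y (n.f (some (a, b))) = (m.T n.jU).y a * (m.T n.jS).y b)
    (hD : IsDv μ ((m.T n.jC).bd - ((m.T n.jU).bd + (m.T n.jS).bd))) :
    Sat (sum m.tgt n.xT) y' := by
  have hx : ∀ (c : ∀ j, m.io j) (p : n.KL), MvPolynomial.aeval (afc m fun j => ⟨j, c j⟩) (n.xi p) =
      py m n.jU p.1 * py m n.jS p.2 / py m n.jC (c n.jC) := fun c p => by
    rw [Cn.xi, MvPolynomial.aeval_X, ← cv]
  have ht : ∀ {x : Y.Pt} {c : ∀ j, m.io j}, (∀ j, At (m.T j).bd x (py m j (c j))) →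
      At (-((m.T n.jC).bd - ((m.T n.jU).bd + (m.T n.jS).bd))) x
        (py m n.jU (c n.jU) * py m n.jS (c n.jS) / py m n.jC (c n.jC)) := fun hc => by
    rw [← inv_div]
    exact ((hc _).sub ((hc _).add (hc _))).neg
  have key : ∀ (x' : X.Pt) (c : ∀ j, m.io j), (∀ j, At (m.T j).bd (μ.map x') (py m j (c j))) →
      ∀ f ∈ (lp (μ.map x')).O, μ.p.π f = 0 ↔
        f / (py m n.jU (c n.jU) * py m n.jS (c n.jS) / py m n.jC (c n.jC)) ∈ (lp (μ.map x')).O := by
    intro x' c hc f hf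
    obtain ⟨t, -, h1, h2⟩ := hD.eqn x'
    have h4 := h1.neg
    rw [inv_inv] at h4
    exact (h2 f hf).trans ⟨h4.chg (ht hc), (ht hc).chg h4⟩
  refine sat_sub h (sat_pre m) (fun a => Ideal.subset_span ⟨.inl a, rfl⟩) ?_ fun x c hc h1 h0 => ?_
  · rintro (a | p)
    · exact h.on (sat_pre m).on a
    · obtain ⟨x⟩ : Nonempty X.Pt := inferInstance
      choose c hc using exists_gen m (μ.map x)
      refine (h.π_eq_zero (c := fun j => ⟨j, c j⟩) (fun _ => rfl) hc (n.mh_xi p)).1 ?_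
      refine (key x c hc _ ((lp_of_mchart (c := fun j => ⟨j, c j⟩) hc).le
        (aeval_afc_mem _ _))).2 ?_
      rw [hx, div_div_div_cancel_right₀ (hc _).ne, mul_div_mul_comm]
      exact mul_mem (div_mem_lp (hc _) _) (div_mem_lp (hc _) _)
  · obtain ⟨c, rfl⟩ := exists_ch hc
    have h2 := h0 (.inr (c n.jU, c n.jS))
    change ev (MvPolynomial.aeval _ (n.xi _)) x = 0 at h2
    rw [hx] at h2
    obtain ⟨x', rfl⟩ : x ∈ Set.range μ.map := by
      by_contra hn
      have h3 := (ht h1).ev_div_ne (hD.off x hn).neg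
      rw [inv_one, div_one] at h3
      exact h3 h2
    classical
    refine ⟨x', rfl, fun f hf hπ => ⟨Pi.single (.inr (c n.jU, c n.jS))
      (f / (py m n.jU (c n.jU) * py m n.jS (c n.jS) / py m n.jC (c n.jC))), fun b => ?_, ?_⟩⟩
    · rw [Pi.single_apply]
      split_ifs
      exacts [(key x' c h1 f hf).1 hπ, zero_mem _]
    · rw [Finset.sum_eq_single (.inr (c n.jU, c n.jS)) (fun b _ hb => by
        rw [Pi.single_eq_of_ne hb, zero_mul]) (fun h => absurd (Finset.mem_univ _) h),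
        Pi.single_eq_same]
      change f = _ * MvPolynomial.aeval _ (n.xi _)
      rw [hx, div_mul_cancel₀ _ (ht h1).ne]

end Crest.Agent.X262.Conc69
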