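import Crest.Agent.X262.Conc69.Core
import Crest.Agent.X262.Gwb.Mst

/-!
# Row 262, CONC (helper69), part 4: the adapter

* `conc_of` : `Conc78.ConcF` gives `Gwb.ConcStmt` for the invariants of `Gwb.Vir`.
-/

set_option autoImplicit false

namespace Crest.Agent.X262.Conc69

open Crest.Agent.X262.Gwb

/-- **concavity** at the level of classes -/
theorem conc_of {C : Coh.Th} {B : Hb.Th} (V : Vir C B) (hF : Conc78.ConcF) : ConcStmt V.gw :=
  fun i m n p => conc_core V hF i m n p.e p.jU p.rsS p.rsY p.f p.cv p.dv p.dv.dim_eq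

end Crest.Agent.X262.Conc69
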