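import Crest.Agent.X262.Conc69.Cut

/-!
# Row 262, CONC (helper69), part 2: the equations of `Y × P ^ r × {p₀}`

* `mh_ind` : induction over multihomogeneous polynomials;  `disj` : linear disjointness;
* `exists_nf` : a normal form modulo the `ξ_p`;  `sat_cd` : the product ideal.
-/

set_option autoImplicit false
set_option linter.unusedSectionVars false

open MvPolynomial

noncomputable section

namespace Crest.Agent.X262.Conc69

open Crest.Agent.X277 Crest.Agent.X277.BD Crest.Agent.R274.Prod1_134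
open Crest.Agent.X262.Coh Crest.Agent.X262.Gwb Crest.Agent.X262.Vb Crest.Agent.X262.Syz
open Crest.Agent.X262.End66 (sum)
open Crest.Agent.X262.Conc78 (Cn Cd vr)

variable {J : Type} [Fintype J] [DecidableEq J] {io : J → Type} [∀ j, Fintype (io j)]
  [∀ j, DecidableEq (io j)]
variable {J₀ : Type} [Fintype J₀] [DecidableEq J₀] {io₀ : J₀ → Type} [∀ j, Fintype (io₀ j)]
  [∀ j, DecidableEq (io₀ j)] {A₀ : Type} [Fintype A₀]

theorem mh_ind {P : (J → ℕ) → MvPolynomial (Vr io) ℂ → Prop} (h0 : ∀ κ, P κ 0)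
    (ha : ∀ κ p q, P κ p → P κ q → P κ (p + q)) (hC : ∀ c, P 0 (C c))
    (hX : ∀ κ p v, P κ p → P (κ + Pi.single v.1 1) (p * X v)) {q : MvPolynomial (Vr io) ℂ}
    {κ : J → ℕ} (h : MH q κ) : P κ q := by
  induction h using IsWeightedHomogeneous.induction_on with
  | zero => exact h0 _
  | add p q _ _ hp hq => exact ha _ _ _ hp hq
  | monomial s r hs =>
    obtain ⟨κ', h1, h2⟩ := induction_on_monomial (motive := fun p => ∃ κ', MH p κ' ∧ P κ' p)
      (fun a => ⟨0, isWeightedHomogeneous_C _ _, hC a⟩)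
      (fun p v ⟨_, h1, h2⟩ => ⟨_, h1.mul (mh_X v.1 v.2), hX _ _ v h2⟩) s r
    rcases eq_or_ne r 0 with rfl | hr
    · simpa using h0 κ
    · rwa [← hs, h1 (d := s) (by simpa using hr)]

theorem disj {F L K σ : Type} [Field F] [Algebra ℂ F] [Field L] [Algebra ℂ L] [Field K]
    [Algebra ℂ K] {α : F →ₐ[ℂ] K} {β : L →ₐ[ℂ] K} (h : IsPF α β) {μ : σ → L} {d : ℕ}
    (hμ : ∀ q : MvPolynomial σ ℂ, q.IsHomogeneous d → aeval μ q = 0 → q = 0)
    {G : MvPolynomial σ F} (hG : G.IsHomogeneous d)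
    (h0 : eval₂ (α : F →+* K) (fun b => β (μ b)) G = 0) : G = 0 := by
  classical
  have h1 : ∑ s ∈ G.support, coeff s G ⊗ₜ[ℂ] (∏ i ∈ s.support, μ i ^ s i) = 0 :=
    h.inj (by rw [map_sum, map_zero, ← h0, eval₂_eq]; simp)
  refine support_eq_empty.1 (Finset.eq_empty_of_forall_notMem fun s hs => mem_support_iff.1 hs ?_)
  refine (Module.forall_dual_apply_eq_zero_iff ℂ _).1 fun l => ?_
  have h2 := hμ (∑ s ∈ G.support, monomial s (l (coeff s G)))
    (IsHomogeneous.sum _ _ _ fun s hs =>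
      isWeightedHomogeneous_monomial _ _ _ (hG (mem_support_iff.1 hs))) (by
      simpa [aeval_monomial, Finsupp.prod, Algebra.smul_def] using
        congrArg (fun x => TensorProduct.lid ℂ L (l.rTensor L x)) h1)
  simpa [coeff_sum, coeff_monomial, hs] using congrArg (coeff s) h2

variable (r : Cd io₀ io)

/-- polynomials in the coordinates of `S` with coefficients from the other factors -/
def ps : MvPolynomial (io (r.e (some none))) (MvPolynomial (Vr io₀) ℂ) →+* MvPolynomial (Vr io) ℂ :=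
  eval₂Hom (rename r.vi : _ →ₐ[ℂ] _) fun b => X ⟨_, b⟩

theorem ps_C (a : MvPolynomial (Vr io₀) ℂ) : ps r (C a) = rename r.vi a := eval₂Hom_C _ _ _

theorem ps_X (b : io (r.e (some none))) : ps r (X b) = X ⟨_, b⟩ := eval₂Hom_X' _ _ _

/-- `G` is a normal form of `q` -/
def NF (κ : J → ℕ) (q : MvPolynomial (Vr io) ℂ) : Prop :=
  ∃ G, (∀ s, MH (coeff s G) fun k => κ (r.e (some (some k)))) ∧
    G.IsHomogeneous (κ (r.e (some none))) ∧
    q - X ⟨_, r.f none⟩ ^ κ (r.e none) * ps r G ∈ Ideal.span (Set.range r.cn.xi)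

theorem mh_zero (κ : J → ℕ) : MH (0 : MvPolynomial (Vr io) ℂ) κ := isWeightedHomogeneous_zero _ _ _

theorem mem_of_eq {R : Type} [CommRing R] {I : Ideal R} {a b : R} (h : a ∈ I) (e : b = a) :
    b ∈ I := e ▸ h

theorem nf_X {κ : J → ℕ} {p : MvPolynomial (Vr io) ℂ} (v : Vr io) (h : NF r κ p) :
    NF r (κ + Pi.single v.1 1) (p * X v) := by
  classical
  obtain ⟨G, h1, h2, h3⟩ := h
  obtain ⟨j, i⟩ := v
  obtain ⟨_ | _ | k, rfl⟩ := r.e.surjective j
  · obtain ⟨_ | i, rfl⟩ := r.f.surjective i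
    · refine ⟨G, by simpa using h1, by simpa using h2,
        mem_of_eq (Ideal.mul_mem_right (X ⟨_, r.f none⟩) _ h3) ?_⟩
      rw [Pi.add_apply, Pi.single_eq_same]
      ring
    · refine ⟨0, fun _ => mh_zero _, isHomogeneous_zero _ _ _, ?_⟩
      rw [map_zero, mul_zero, sub_zero]
      exact Ideal.mul_mem_left _ _ (Ideal.subset_span ⟨i, rfl⟩)
  · refine ⟨G * X i, fun s => ?_, by simpa using h2.mul (isHomogeneous_X _ i),
      mem_of_eq (Ideal.mul_mem_right (X ⟨_, i⟩) _ h3) ?_⟩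
    · rw [coeff_mul_X']
      split_ifs
      exacts [by simpa using h1 _, mh_zero _]
    · rw [map_mul, ps_X, Pi.add_apply, Pi.single_eq_of_ne (by simp), add_zero]
      ring
  · obtain ⟨i, rfl⟩ := (r.ei k).surjective i
    refine ⟨C (X ⟨k, i⟩) * G, fun s => ?_, by simpa using h2.C_mul _,
      mem_of_eq (Ideal.mul_mem_right (X (r.vi ⟨k, i⟩)) _ h3) ?_⟩
    · have e : (fun k' => (κ + Pi.single (r.e (some (some k))) 1 : J → ℕ) (r.e (some (some k')))) =
          Pi.single k 1 + fun k => κ (r.e (some (some k))) := funext fun k' => by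
        simp [Pi.single_apply, add_comm]
      rw [coeff_C_mul, e]
      exact (mh_X k i).mul (h1 s)
    · rw [map_mul, ps_C, rename_X, Pi.add_apply, Pi.single_eq_of_ne (by simp), add_zero, Cd.vi]
      ring

theorem exists_nf {q : MvPolynomial (Vr io) ℂ} {κ : J → ℕ} (h : MH q κ) : NF r κ q := by
  classical
  refine mh_ind (fun κ => ⟨0, fun _ => mh_zero _, isHomogeneous_zero _ _ _, by simp⟩) ?_
    (fun c => ⟨C (C c), fun s => ?_, isHomogeneous_C _ _, by simp [ps_C]⟩) (fun _ _ => nf_X r) h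
  · rintro κ p q ⟨G, h1, h2, h3⟩ ⟨G', h1', h2', h3'⟩
    refine ⟨G + G', fun s => ?_, h2.add h2', mem_of_eq (add_mem h3 h3') ?_⟩
    · rw [coeff_add]
      exact (h1 s).add (h1' s)
    · rw [map_add]
      ring
  · rw [coeff_C]
    split_ifs
    exacts [isWeightedHomogeneous_C _ _, mh_zero _]

/-- the product ideal, for fields -/
theorem sat_fld {F L K : Type} [Field F] [Algebra ℂ F] [Field L] [Algebra ℂ L] [Field K]
    [Algebra ℂ K] {α : F →ₐ[ℂ] K} {β : L →ₐ[ℂ] K} (h : IsPF α β) {T : Tgt io₀ A₀} {ν : Pnt io₀ F}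
    (hT : Cut T ν) {μ : io (r.e (some none)) → L}
    (hμ : ∀ d (q : MvPolynomial _ ℂ), q.IsHomogeneous d → aeval μ q = 0 → q = 0) {y : Pnt io K}
    (hy : NZ y) {c : J₀ → K} (h1 : ∀ k i, r.pr y k i = c k * α (ν k i)) {c' : K}
    (h2 : ∀ b, y _ b = c' * β (μ b)) (h3 : ∀ p, y _ (r.f (some p)) = 0) :
    Sat (sum (r.tgt T) r.cn.xT) y := by
  classical
  have hc : ∀ k, c k ≠ 0 := fun k h0 => by
    obtain ⟨i, hi⟩ := hy (r.e (some (some k)))
    obtain ⟨i, rfl⟩ := (r.ei k).surjective i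
    exact hi ((h1 k i).trans (by rw [h0, zero_mul]))
  have hc' : c' ≠ 0 := fun h0 => (hy _).elim fun b hb => hb ((h2 b).trans (by rw [h0, zero_mul]))
  have h4 : y _ (r.f none) ≠ 0 := by
    obtain ⟨i, hi⟩ := hy (r.e none)
    obtain ⟨_ | i, rfl⟩ := r.f.surjective i
    exacts [hi, absurd (h3 i) hi]
  have h5 : ∀ a : MvPolynomial (Vr io₀) ℂ, aeval (fun v => α (fl ν v)) a = α (aeval (fl ν) a) :=
    fun a => (comp_aeval_apply _ α a).symm
  refine ⟨?_, fun q κ hq h0 _ => ⟨0, ?_⟩⟩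
  · rintro (a | p)
    · refine (r.pv_rename y _).trans ?_
      rw [pv]
      simp only [h1]
      rw [aeval_scale c (fun v => α (fl ν v)) (T.hom a), h5, show aeval (fl ν) _ = 0 from hT.on a,
        map_zero, mul_zero]
    · exact (pv_xi _ y p).trans (h3 p)
  obtain ⟨G, g1, g2, g3⟩ := exists_nf r hq
  let t : J → K := fun j => (r.e.symm j).elim 1 fun o => o.elim c'⁻¹ fun k => (c k)⁻¹
  let ε : MvPolynomial (Vr io) ℂ →ₐ[ℂ] K := aeval fun v : Vr io => t v.1 * fl y v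
  have e1 : ε q = 0 := (aeval_scale t (fl y) hq).trans (mul_eq_zero_of_right _ h0)
  have e2 : Ideal.span (Set.range r.cn.xi) ≤ RingHom.ker ε := Ideal.span_le.2 (by
    rintro _ ⟨p, rfl⟩
    exact (aeval_X _ _).trans (mul_eq_zero_of_right _ (h3 p)))
  have e3 : ε (ps r G) = 0 := by
    have := e2 g3
    rw [RingHom.mem_ker, map_sub, e1, zero_sub, neg_eq_zero, map_mul, map_pow, aeval_X] at this
    exact (mul_eq_zero.1 this).resolve_left (pow_ne_zero _ (mul_ne_zero (by simp [t]) h4))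
  have e4 : (ε : _ →+* K).comp (ps r) = (eval₂Hom (α : F →+* K) fun b => β (μ b)).comp
      (map (aeval (fl ν) : MvPolynomial (Vr io₀) ℂ →ₐ[ℂ] F)) := by
    refine ringHom_ext (fun a => ?_) fun b => ?_
    · have e5 : (fun v : Vr io => t v.1 * fl y v) ∘ r.vi = fun v => α (fl ν v) := funext fun v => by
        change t (r.e _) * r.pr y v.1 v.2 = _
        simp [t, h1, hc]
      rw [RingHom.comp_apply, RingHom.comp_apply, ps_C, map_C, eval₂Hom_C]
      exact (aeval_rename _ _ _).trans (e5 ▸ h5 a)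
    · simp [ps_X, ε, t, h2, hc']
  have e6 := disj h (hμ _) (g2.map _) ((RingHom.congr_fun e4 G).symm.trans e3)
  rw [pow_zero, one_mul, ← sub_add_cancel q (X ⟨_, r.f none⟩ ^ κ (r.e none) * ps r G)]
  refine add_mem (Ideal.span_mono ?_ g3) (Ideal.mul_mem_left _ _ ?_)
  · rintro _ ⟨p, rfl⟩
    exact ⟨.inr p, rfl⟩
  · rw [ps, coe_eval₂Hom, eval₂_eq]
    refine Ideal.sum_mem _ fun s _ => Ideal.mul_mem_right _ _ ?_
    have e7 := Ideal.mem_map_of_mem (rename r.vi : _ →ₐ[ℂ] MvPolynomial (Vr io) ℂ)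
      (hT.mem (g1 s) ((coeff_map _ G s).symm.trans (congrArg (coeff s) e6)))
    rw [Ideal.map_span] at e7
    refine Ideal.span_mono ?_ e7
    rintro _ ⟨_, ⟨a, rfl⟩, rfl⟩
    exact ⟨.inl a, rfl⟩

/-- **the product ideal** -/
theorem sat_cd {Y S : SV} (hS : IsProj S) {n : Pre Y} (r : Cd n.io io) {y : Pnt io (Y.prod S).F}
    (hy : NZ y) (h1 : Rst (fst Y S) n (r.pr y))
    (h2 : Rs (snd Y S) (ownT S) ⟨io (r.e (some none)), y _⟩) (h3 : ∀ p, y _ (r.f (some p)) = 0) :
    Sat (sum (r.tgt n.tgt) r.cn.xT) y := by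
  choose u c _ a using h1.2
  obtain ⟨e, u', c', -, b⟩ := h2
  refine sat_fld r (isPF ℂ Y.F S.F) (cut_pre n) (μ := fun b => S.P.y (e.symm b))
    (fun d q hq h0 => rename_injective _ e.symm.injective ?_) hy
    (c := fun k => c k / pα ℂ Y.F S.F (u k)) (fun k i => ?_) (c' := c' / pβ ℂ Y.F S.F u')
    (fun l => ?_) h3
  · rw [map_zero]
    exact hS d _ hq.rename_isHomogeneous ((aeval_rename _ _ _).trans h0)
  · rw [a, div_mul_eq_mul_div, mul_div_assoc, ← map_div₀]
    rfl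
  · obtain ⟨l, rfl⟩ := e.surjective l
    rw [Equiv.symm_apply_apply, div_mul_eq_mul_div, mul_div_assoc, ← map_div₀]
    exact b l

end Crest.Agent.X262.Conc69
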